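import Vale.Agent.P122.H655.E3
import Vale.Agent.P127.U.ExcC
import Vale.Agent.P127.U.LocT
import Vale.Agent.P127.U.ApxS

/-!
# P122 / H683 : the excess of coarser tubes (helper683)

* `excF_coarse` : if the lines `l` and `l'` are `c 2^-n'`-close and `n' ≤ n`, then
  `excF (tbx n' l') C ≤ excF (tbx n l) C + 2 (n - n') log 2 + K₀(c)`.
* `exc_coarse` : the same for systems, `exc (tubes n' l') C ≤ exc (tubes n l) C + 2 (ν n - ν n')`.
-/

set_option autoImplicit false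

namespace Vale.Agent.P122.H683

open Filter Topology Vale.Agent.P127 Vale.Agent.P127.Stk Vale.Agent.P127.U Vale.Agent.P127.U.Sys

/-- the lines `l` and `l'` are close at the scale `2^-n` -/
def LnCl (c n : ℕ) (l l' : Ln) : Prop :=
  (∀ k, |l.1 k - l'.1 k| ≤ c * (1 / 2 : ℝ) ^ n) ∧ ∀ k, |l.2 k - l'.2 k| ≤ c * (1 / 2 : ℝ) ^ n

theorem LnCl.symm {c n : ℕ} {l l' : Ln} (h : LnCl c n l l') : LnCl c n l' l :=
  ⟨fun k => by rw [abs_sub_comm]; exact h.1 k, fun k => by rw [abs_sub_comm]; exact h.2 k⟩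

/-- the labels of close lines are close -/
theorem labCl_of_close {c n k j : ℕ} {θ : ℝ} (hkj : k ≤ j) (hj : j ≤ n) {l l' : Ln} (h : LnCl c n l l') :
    LabCl (2 * c + 1) (lab θ k j l) (lab θ k j l') := by
  have hp : ∀ m, (0:ℝ) < (1 / 2 : ℝ) ^ m := fun m => by positivity
  have key : ∀ (v v' : Fin 2 → ℝ), (∀ i, |v i - v' i| ≤ c * (1 / 2 : ℝ) ^ n) → ∀ (φ : ℝ) (m : ℕ), m ≤ n → ∀ i,
      |fl1 m (co φ v i) - fl1 m (co φ v' i)| ≤ ((2 * c + 1 : ℕ) : ℤ) := by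
    intro v v' hv φ m hm i
    have h1 := abs_co_le (θ := φ) (v := fun i => v i - v' i) hv i
    rw [co_sub] at h1
    have h2 : (1 / 2 : ℝ) ^ n ≤ (1 / 2 : ℝ) ^ m := pow_le_pow_of_le_one (by norm_num) (by norm_num) hm
    have h3 : |co φ v i - co φ v' i| ≤ ((2 * c : ℕ) : ℝ) * (1 / 2 : ℝ) ^ m := by
      refine h1.trans ?_
      push_cast
      have hc : (0:ℝ) ≤ c := Nat.cast_nonneg c
      nlinarith [mul_le_mul_of_nonneg_left h2 hc]
    have := fl1_sub_le h3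
    push_cast at this ⊢
    exact this
  refine ⟨rfl, rfl, rfl, ?_, ?_, ?_, ?_⟩
  · exact key _ _ h.1 _ k (hkj.trans hj) 0
  · exact key _ _ h.1 _ j hj 1
  · exact key _ _ h.2 _ k (hkj.trans hj) 0
  · exact key _ _ h.2 _ j hj 1

section finite

variable {Ω : Type} [Fintype Ω] {γ : Type*}

/-- the constant -/
noncomputable def KC (c : ℕ) : ℝ := 2 * Real.log (((2 * (2 * c + 1) + 1) ^ 4 : ℕ) : ℝ)

theorem KC_nonneg (c : ℕ) : 0 ≤ KC c := by
  unfold KC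
  refine mul_nonneg (by norm_num) (Real.log_nonneg ?_)
  exact_mod_cast Nat.one_le_iff_ne_zero.2 (by positivity)

/-- **coarser tubes** have an excess which is larger by at most `2 (n - n') log 2` -/
theorem excF_coarse (P : Law Ω) (l l' : Ω → Ln) (C : Ω → γ) {c n n' : ℕ} (hn : n' ≤ n)
    (hl : ∀ ω, 0 < P.w ω → LnOk (l' ω)) (h : ∀ ω, 0 < P.w ω → LnCl c n' (l ω) (l' ω)) :
    excF P (tbx n' l') C ≤ excF P (tbx n l) C + 2 * ((n : ℝ) - n') * Real.log 2 + KC c := by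
  have hok : ∀ ω, 0 < P.w ω → BxOk (tbx n' l') ω := fun ω hω => ⟨hl ω hω, by simp [tbx], le_rfl⟩
  refine csSup_le ⟨0, zero_mem_exSet hok⟩ ?_
  rintro v ⟨Ω', _, P', π, W, hπ, hW, rfl⟩
  have hpos : ∀ ω, 0 < P'.w ω → 0 < P.w (π ω) := fun ω hω => by
    rw [← hπ]
    exact P'.pr_pos π hω
  let W' : Bx Ω' := ⟨fun ω => l (π ω), W.θ, W.k, W.j⟩
  have hW' : ∀ ω, 0 < P'.w ω → Sub 1 ((tbx n l).comp π) W' ω := by
    intro ω hω
    obtain ⟨-, h2, h3, h4, h5, h6⟩ := hW ω hω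
    have h4' : W.k ω ≤ n' := h4
    have h5' : W.j ω ≤ n' := h5
    refine ⟨rfl, h2, h3, h4'.trans hn, h5'.trans hn, ?_⟩
    have h7 : |Real.sin (((tbx n l).comp π).θ ω - W'.θ ω)| ≤ 1 := Real.abs_sin_le_one _
    have h8 : (1 / 2 : ℝ) ^ n ≤ (1 / 2 : ℝ) ^ W.j ω :=
      pow_le_pow_of_le_one (by norm_num) (by norm_num) (h5'.trans hn)
    have h9 : (0:ℝ) < (1 / 2 : ℝ) ^ n := by positivity
    calc |Real.sin (((tbx n l).comp π).θ ω - W'.θ ω)| * (1 / 2 : ℝ) ^ ((tbx n l).comp π).k ω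
        ≤ 1 * (1 / 2 : ℝ) ^ n := mul_le_mul_of_nonneg_right h7 h9.le
      _ ≤ 1 * (1 / 2 : ℝ) ^ W'.j ω := by rw [one_mul, one_mul]; exact h8
  have h0 : exV P' ((tbx n l).comp π) W' (fun ω => C (π ω)) ≤ excF P (tbx n l) C :=
    le_csSup (exSet_bddAbove P (tbx n l) C) ⟨Ω', inferInstance, P', π, W', hπ, hW', rfl⟩
  -- closeness of the labels
  have hclW : ∀ ω, 0 < P'.w ω → LabCl (2 * c + 1) (W'.lab ω) (W.lab ω) := by
    intro ω hω
    obtain ⟨g1, -, g3, -, g5, -⟩ := hW ω hω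
    have g5' : W.j ω ≤ n' := g5
    have e : W.lab ω = lab (W.θ ω) (W.k ω) (W.j ω) (l' (π ω)) := by
      unfold Bx.lab
      rw [g1]
      rfl
    rw [e]
    exact labCl_of_close g3 g5' (h _ (hpos ω hω))
  set X' : Ω' → Lab := ((tbx n' l').comp π).lab with hX'
  set X : Ω' → Lab := ((tbx n l).comp π).lab with hX
  set X1 : Ω' → Lab := fun ω => lab 0 n' n' (l (π ω)) with hX1
  have hclX : ∀ ω, 0 < P'.w ω → LabCl (2 * c + 1) (X' ω) (X1 ω) := by
    intro ω hω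
    exact labCl_of_close le_rfl le_rfl (h _ (hpos ω hω)).symm
  set Y : Ω' → Lab × γ := fun ω => (W.lab ω, C (π ω)) with hY
  have b1 : Stk.hc P' X' Y ≤ Stk.hc P' X' (fun ω => (W'.lab ω, Y ω)) + Stk.hc P' W'.lab Y :=
    Stk.hc_le_add' P' X' W'.lab Y
  have b2 : Stk.hc P' W'.lab Y ≤ KC c / 2 := by
    have := hc_labCl P' W'.lab W.lab (fun ω => C (π ω)) (2 * c + 1) hclW
    unfold KC
    linarith
  have b3 : Stk.hc P' X' (fun ω => (W'.lab ω, Y ω)) ≤ Stk.hc P' X' (fun ω => (W'.lab ω, C (π ω))) := by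
    refine Stk.hc_mono_right P' X' ?_
    intro ω ω' _ _ e
    simp only [hY, Prod.mk.injEq] at e ⊢
    exact ⟨e.1, e.2.2⟩
  set Z : Ω' → Lab × γ := fun ω => (W'.lab ω, C (π ω)) with hZ
  have b4 : Stk.hc P' X' Z ≤ Stk.hc P' X' (fun ω => (X1 ω, Z ω)) + Stk.hc P' X1 Z :=
    Stk.hc_le_add' P' X' X1 Z
  have b5 : Stk.hc P' X' (fun ω => (X1 ω, Z ω)) ≤ KC c / 2 := by
    have := hc_labCl P' X' X1 Z (2 * c + 1) hclX
    unfold KC
    linarith
  have b6 : Stk.hc P' X1 Z ≤ Stk.hc P' X Z := by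
    refine Stk.hc_mono_left P' ?_
    intro ω ω' _ _ e
    have e1 : tb n (l (π ω)) = tb n (l (π ω')) := LocT.lab_tube_eq.1 (congrArg Prod.fst e)
    refine LocT.lab_tube_eq.2 ?_
    have e2 : fl n (l (π ω)).1 = fl n (l (π ω')).1 := congrArg Prod.fst e1
    have e3 : fl n (l (π ω)).2 = fl n (l (π ω')).2 := congrArg Prod.snd e1
    exact Prod.ext (Stk.fl_of_fl hn _ _ e2) (Stk.fl_of_fl hn _ _ e3)
  have b7 : Stk.hc P' X' Y ≤ Stk.hc P' X Z + KC c := by linarith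
  -- sizes
  have s1 : (P'.ex fun ω => ((tbx n' l').comp π).sz ω - W.sz ω) =
      (P'.ex fun ω => ((tbx n l).comp π).sz ω - W'.sz ω) - 2 * ((n:ℝ) - n') := by
    have e : (fun ω => ((tbx n' l').comp π).sz ω - W.sz ω) =
        fun ω => (((tbx n l).comp π).sz ω - W'.sz ω) - 2 * ((n:ℝ) - n') := by
      funext ω
      show ((n':ℝ) + n') - ((W.k ω : ℝ) + W.j ω) = (((n:ℝ) + n) - ((W.k ω : ℝ) + W.j ω)) - 2 * ((n:ℝ) - n')
      ring
    rw [e]
    have := P'.ex_sub (fun ω => ((tbx n l).comp π).sz ω - W'.sz ω) (fun _ => 2 * ((n:ℝ) - n'))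
    rw [this, P'.ex_const]
  unfold exV at h0 ⊢
  rw [s1]
  have hlog : 0 ≤ Real.log 2 := Real.log_nonneg (by norm_num)
  nlinarith

end finite

section systems

variable {S : Sys} {γ : Type}

theorem ub_digits {n : ℕ → ℕ} (hn : S.Bd n) : UB fun i => (n i : ℝ) / S.L i := Apx.UB.nu hn

theorem tubes_ok {n : ℕ → ℕ} (hn : S.Bd n) {l : S.RV Ln} (h : LnA l) : BxA (tubes n l) := by
  obtain ⟨C, hC⟩ := hn
  refine ⟨?_, C, ?_⟩
  · filter_upwards [h] with i hi ω hω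
    exact ⟨hi ω hω, by show |(0 : ℝ)| ≤ 4; norm_num, le_rfl⟩
  · filter_upwards [hC] with i hi ω _
    exact hi

/-- **coarser tubes**, system version -/
theorem exc_coarse {n n' : ℕ → ℕ} {l l' : S.RV Ln} (C : S.RV γ) (c : ℕ) (hn : S.Bd n) (hle : ∀ i, n' i ≤ n i)
    (hl : LnA l) (hl' : LnA l') (h : S.Ae fun i ω => LnCl c (n' i) (l i ω) (l' i ω)) :
    S.exc (tubes n' l') C ≤ S.exc (tubes n l) C + 2 * (S.nu n - S.nu n') := by
  have hn' : S.Bd n' := Apx.bd_mono hn hle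
  have hB : BxA (tubes n l) := tubes_ok hn hl
  have hB' : BxA (tubes n' l') := tubes_ok hn' hl'
  have hd : UB fun i => 2 * ((n i : ℝ) / S.L i - (n' i : ℝ) / S.L i) :=
    ((ub_digits hn).sub (ub_digits hn')).const_mul 2
  have e1 : 2 * (S.nu n - S.nu n') = ulim fun i => 2 * ((n i : ℝ) / S.L i - (n' i : ℝ) / S.L i) := by
    unfold Sys.nu
    rw [ulim_const_mul 2 ((ub_digits hn).sub (ub_digits hn')), ulim_sub (ub_digits hn) (ub_digits hn')]
  rw [e1]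
  unfold Sys.exc
  rw [← ulim_add (ub_exc hB C) hd]
  refine ulim_le_of_sub (ub_exc hB' C) ((ub_exc hB C).add hd) (S.const_div_nm (KC c)) ?_
  filter_upwards [S.nm_pos, S.L_pos, hl', h] with i h1 hL h2 h3
  have hlog : 0 < Real.log 2 := Real.log_pos (by norm_num)
  have hL' : (0:ℝ) < S.L i := by exact_mod_cast hL
  have h4 := excF_coarse (S.P i) (l i) (l' i) (C i) (hle i) h2 h3
  have h5 : (2 * ((n i : ℝ) - n' i) * Real.log 2) / S.nm i = 2 * ((n i : ℝ) / S.L i - (n' i : ℝ) / S.L i) := by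
    unfold Sys.nm
    field_simp
  rw [← h5, ← add_div, ← add_div]
  exact div_le_div_of_nonneg_right h4 h1.le

end systems

end Vale.Agent.P122.H683
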