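import Vale.Agent.P122.H655.E3
import Vale.Agent.P122.H823.Lst
import Vale.Agent.P122.H683.Coarse

/-!
# P122 / H683 : the excess of the pieces `sig c d` (helper683)

* `close_lst` : the line `lst c d` of the piece `sig c d` is `C 2^-(2 c - d) n`-close to the line `ln c`.
* `exc_lst` : `exc (tubes (m (2 c - d)) lst) (ball c) ≤ exc c + 2 (d - c) / K`.
* `exc_lst_le` : part (c) of E8 : the same with `e c` instead of `exc c`.
-/

set_option autoImplicit false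

namespace Vale.Agent.P122.H683

open Filter Topology Finset Vale.Agent.P127 Vale.Agent.P127.Stk Vale.Agent.P127.U Vale.Agent.P127.U.Sys
  Vale.Agent.P122.C2 Vale.Agent.P122.E

/-- the ancestor of a cap is a cap -/
theorem cap_anc {n a r : ℕ} {τ : Z2} (h : Cap n (a + r) τ) : Cap n a fun k => τ k / 2 ^ (r * n) := by
  intro k
  have h1 := h k
  have h2 : (0:ℤ) < 2 ^ (r * n) := by positivity
  refine ⟨Int.ediv_nonneg h1.1 h2.le, ?_⟩
  refine Int.ediv_lt_of_lt_mul h2 ?_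
  rw [← pow_add]
  have e : a * n + r * n = (a + r) * n := by ring
  rw [e]
  exact h1.2

/-- slopes of the ancestors -/
theorem slp_anc {C : ℝ} {n K : ℕ} {s : ℕ → Z2 → Fin 2 → ℝ} (hs : Slp C n K s) (a r : ℕ) (hr : a + r ≤ K) (τ : Z2)
    (hτ : Cap n (a + r) τ) (k : Fin 2) :
    |s (a + r) τ k - s a (fun k => τ k / 2 ^ (r * n)) k| ≤ |C| * r / 2 ^ (a * n) := by
  induction r generalizing τ with
  | zero =>
    have e : (fun k => τ k / 2 ^ (0 * n)) = τ := by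
      funext k
      rw [Nat.zero_mul, pow_zero, Int.ediv_one]
    rw [e]
    simp
  | succ r ih =>
    have h1 : Cap n (a + r) (par n τ) := by
      have := cap_anc (n := n) (a := a + r) (r := 1) (τ := τ) hτ
      rw [Nat.one_mul] at this
      exact this
    have h2 := ih (by omega) (par n τ) h1
    have h3 := hs.nest (a + r) τ k (by omega) hτ
    have e : (fun k => (par n τ) k / 2 ^ (r * n)) = fun k => τ k / 2 ^ ((r + 1) * n) := by
      funext k
      show τ k / 2 ^ n / 2 ^ (r * n) = _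
      rw [Int.ediv_ediv_of_nonneg (by positivity), ← pow_add]
      congr 2
      ring
    rw [e] at h2
    have h4 : C / 2 ^ ((a + r) * n) ≤ |C| / 2 ^ (a * n) := by
      refine div_le_div₀ (abs_nonneg _) (le_abs_self _) (by positivity) ?_
      exact pow_le_pow_right₀ (by norm_num) (Nat.mul_le_mul_right n (by omega))
    have h5 := abs_add_le (s (a + r + 1) τ k - s (a + r) (par n τ) k)
      (s (a + r) (par n τ) k - s a (fun k => τ k / 2 ^ ((r + 1) * n)) k)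
    have e2 : s (a + r + 1) τ k - s (a + r) (par n τ) k +
        (s (a + r) (par n τ) k - s a (fun k => τ k / 2 ^ ((r + 1) * n)) k) =
        s (a + r + 1) τ k - s a (fun k => τ k / 2 ^ ((r + 1) * n)) k := by ring
    rw [e2] at h5
    have h6 : |C| * ((r + 1 : ℕ) : ℝ) / 2 ^ (a * n) = |C| / 2 ^ (a * n) + |C| * r / 2 ^ (a * n) := by
      push_cast
      ring
    rw [h6]
    exact h5.trans (add_le_add (h3.trans h4) h2)

/-- positions of the ancestors -/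
theorem fract_anc (o : ℤ) (p q : ℕ) :
    |Int.fract ((o : ℝ) / 2 ^ (p + q)) - Int.fract (((o / 2 ^ q : ℤ) : ℝ) / 2 ^ p)| ≤ (1 / 2 : ℝ) ^ p := by
  rw [H655.fract_eq, H655.fract_eq, H655.emod_cast, H655.emod_cast]
  have e1 : o / 2 ^ (p + q) = o / 2 ^ q / 2 ^ p := by
    rw [Int.ediv_ediv_of_nonneg (by positivity), ← pow_add, add_comm]
  rw [e1]
  have h2 := Int.emod_add_mul_ediv o (2 ^ q)
  have h3 : (o : ℝ) = ((o % 2 ^ q : ℤ) : ℝ) + 2 ^ q * ((o / 2 ^ q : ℤ) : ℝ) := by exact_mod_cast h2.symm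
  have h4 : (0:ℤ) < 2 ^ q := by positivity
  have h5 : (0 : ℝ) ≤ ((o % 2 ^ q : ℤ) : ℝ) := by exact_mod_cast Int.emod_nonneg o h4.ne'
  have h6 : ((o % 2 ^ q : ℤ) : ℝ) ≤ 2 ^ q := by exact_mod_cast (Int.emod_lt_of_pos o h4).le
  have e2 : (o : ℝ) / 2 ^ (p + q) - ((o / 2 ^ q / 2 ^ p : ℤ) : ℝ) -
      (((o / 2 ^ q : ℤ) : ℝ) / 2 ^ p - ((o / 2 ^ q / 2 ^ p : ℤ) : ℝ)) =
      ((o % 2 ^ q : ℤ) : ℝ) / 2 ^ q * (1 / 2 : ℝ) ^ p := by
    have e3 : (o : ℝ) / 2 ^ (p + q) =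
        ((o % 2 ^ q : ℤ) : ℝ) / 2 ^ q * (2 ^ p)⁻¹ + ((o / 2 ^ q : ℤ) : ℝ) / 2 ^ p := by
      have : (2:ℝ) ^ q ≠ 0 := by positivity
      have : (2:ℝ) ^ p ≠ 0 := by positivity
      rw [h3, pow_add, ← h3]
      rw [h3]
      field_simp
    rw [e3, one_div, inv_pow]
    ring
  rw [e2, abs_of_nonneg (by positivity)]
  have h7 : ((o % 2 ^ q : ℤ) : ℝ) / 2 ^ q ≤ 1 := (div_le_one (by positivity)).2 h6
  calc ((o % 2 ^ q : ℤ) : ℝ) / 2 ^ q * (1 / 2 : ℝ) ^ p ≤ 1 * (1 / 2 : ℝ) ^ p :=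
        mul_le_mul_of_nonneg_right h7 (by positivity)
    _ = _ := one_mul _

variable {K : ℕ} (F : Flg K)

/-- the constant of the closeness -/
noncomputable def cF (F : Flg K) (c d : ℕ) : ℕ := ⌈|F.C| * ((d - c : ℕ) : ℝ)⌉₊ + 1

/-- **the line of `sig c d` is close to the line of the tube** -/
theorem close_lst {c d : ℕ} (h1 : c ≤ d) (h2 : d ≤ 2 * c) (hc : c ≤ K) (i : ℕ) {ω : F.S.Ω i}
    (hω : 0 < (F.S.P i).w ω) :
    LnCl (cF F c d) (F.m (2 * c - d) i) (F.ln c i ω) (F.lst c d i ω) := by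
  have hC : |F.C| * ((d - c : ℕ) : ℝ) ≤ cF F c d := by
    unfold cF
    push_cast
    have := Nat.le_ceil (|F.C| * ((d - c : ℕ) : ℝ))
    linarith
  have h1C : (1:ℝ) ≤ cF F c d := by
    unfold cF
    push_cast
    have : (0:ℝ) ≤ (⌈|F.C| * ((d - c : ℕ) : ℝ)⌉₊ : ℝ) := Nat.cast_nonneg _
    linarith
  have hp : (0:ℝ) < (1 / 2 : ℝ) ^ ((2 * c - d) * F.n i) := by positivity
  have e : 2 * c - d + (d - c) = c := by omega
  constructor
  · intro k
    show |Int.fract (((F.N c i ω).o k : ℝ) / 2 ^ (c * F.n i)) -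
      Int.fract ((((F.N c i ω).o k / 2 ^ ((d - c) * F.n i) : ℤ) : ℝ) / 2 ^ ((2 * c - d) * F.n i))| ≤
        (cF F c d : ℝ) * (1 / 2 : ℝ) ^ ((2 * c - d) * F.n i)
    have h3 := fract_anc ((F.N c i ω).o k) ((2 * c - d) * F.n i) ((d - c) * F.n i)
    have e2 : (2 * c - d) * F.n i + (d - c) * F.n i = c * F.n i := by rw [← add_mul, e]
    rw [e2] at h3
    refine h3.trans ?_
    nlinarith
  · intro k
    show |F.s i c (F.N c i ω).τ k - F.s i (2 * c - d) (fun k => (F.N c i ω).τ k / 2 ^ ((d - c) * F.n i)) k| ≤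
      (cF F c d : ℝ) * (1 / 2 : ℝ) ^ ((2 * c - d) * F.n i)
    have h3 := slp_anc (F.slp i) (2 * c - d) (d - c) (by omega) (F.N c i ω).τ
      (by rw [e]; exact H655.cap_N F i hω c hc) k
    rw [e] at h3
    refine h3.trans ?_
    rw [one_div, inv_pow, ← div_eq_mul_inv]
    exact div_le_div_of_nonneg_right hC (by positivity)

/-- the lines of the pieces are normalised -/
theorem lnOk_lst {c d : ℕ} (h1 : c ≤ d) (h2 : d ≤ 2 * c) (hc : c ≤ K) (i : ℕ) {ω : F.S.Ω i}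
    (hω : 0 < (F.S.P i).w ω) : LnOk (F.lst c d i ω) := by
  constructor
  · intro k
    show |Int.fract _| ≤ 1
    rw [abs_of_nonneg (Int.fract_nonneg _)]
    exact (Int.fract_lt_one _).le
  · intro k
    refine (F.slp i).bd (2 * c - d) _ k (by omega) ?_
    have e : 2 * c - d + (d - c) = c := by omega
    exact cap_anc (a := 2 * c - d) (r := d - c) (by rw [e]; exact H655.cap_N F i hω c hc)

theorem lnA_lst {c d : ℕ} (h1 : c ≤ d) (h2 : d ≤ 2 * c) (hc : c ≤ K) : LnA (F.lst c d) :=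
  Eventually.of_forall fun i _ hω => lnOk_lst F h1 h2 hc i hω

theorem lnA_ln {c : ℕ} (hc : c ≤ K) : LnA (F.ln c) :=
  Eventually.of_forall fun i _ hω => H655.lnOk_ln F i hω c hc

theorem bd_m (hK : 1 ≤ K) (c : ℕ) : F.S.Bd (F.m c) := by
  refine ⟨c, Eventually.of_forall fun i => ?_⟩
  have h1 : F.n i ≤ F.S.L i := by
    rw [F.L_eq]
    exact Nat.le_mul_of_pos_left _ hK
  have h2 : (F.n i : ℝ) ≤ F.S.L i := by exact_mod_cast h1
  unfold Flg.m
  push_cast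
  exact mul_le_mul_of_nonneg_left h2 (Nat.cast_nonneg _)

theorem nu_m (hK : 1 ≤ K) (c : ℕ) : F.S.nu (F.m c) = (c : ℝ) / K := by
  unfold Sys.nu
  rw [← ulim_const ((c:ℝ) / K)]
  refine ulim_congr ?_
  filter_upwards [F.S.L_pos] with i hi
  have h1 := F.L_eq i
  have hK' : (K:ℝ) ≠ 0 := by
    have : (0:ℝ) < K := by exact_mod_cast hK
    exact this.ne'
  have h2 : (F.n i : ℝ) ≠ 0 := by
    intro h0
    have h3 : F.n i = 0 := by exact_mod_cast h0
    rw [h3, mul_zero] at h1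
    omega
  unfold Flg.m
  rw [h1]
  push_cast
  field_simp

/-- **excess of the pieces** -/
theorem exc_lst (hK : 1 ≤ K) {c d : ℕ} (h1 : c ≤ d) (h2 : d ≤ 2 * c) (hc : c ≤ K) :
    F.S.exc (tubes (F.m (2 * c - d)) (F.lst c d)) (F.ball c) ≤ F.exc c + 2 * ((d : ℝ) - c) / K := by
  have h3 := exc_coarse (S := F.S) (n := F.m c) (n' := F.m (2 * c - d)) (l := F.ln c) (l' := F.lst c d) (F.ball c)
    (cF F c d) (bd_m F hK c) (fun i => Nat.mul_le_mul_right _ (by omega)) (lnA_ln F hc) (lnA_lst F h1 h2 hc)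
    (Eventually.of_forall fun i ω hω => close_lst F h1 h2 hc i hω)
  rw [nu_m F hK, nu_m F hK] at h3
  have e : 2 * ((c:ℝ) / K - ((2 * c - d : ℕ) : ℝ) / K) = 2 * ((d : ℝ) - c) / K := by
    push_cast [Nat.cast_sub h2]
    ring
  rw [e] at h3
  exact h3

/-- **part (c) of E8** -/
theorem exc_lst_le (hK : 1 ≤ K) {c d : ℕ} (h1 : c ≤ d) (h2 : d ≤ 2 * c) (hc : c ≤ K) {e : ℝ} (he : 0 ≤ e)
    (h : ExU F c e) :
    F.S.exc (tubes (F.m (2 * c - d)) (F.lst c d)) (F.ball c) ≤ e + 2 * ((d : ℝ) - c) / K := by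
  have h3 := exc_lst F hK h1 h2 hc
  have h4 := H655.e3 F c e hK hc he h
  linarith

/-- **part (c) of E8** for regular systems -/
theorem exc_lst_reg (hK : 1 ≤ K) {J θ H e : ℕ → ℝ} {W : ℕ → F.S.BX} {kk jj : ℕ → ℕ → ℕ} (hR : RegA F J θ H e W kk jj)
    {c d : ℕ} (h1 : c ≤ d) (h2 : d ≤ 2 * c) (hc : c ≤ K) :
    F.S.exc (tubes (F.m (2 * c - d)) (F.lst c d)) (F.ball c) ≤ e c + 2 * ((d : ℝ) - c) / K :=
  exc_lst_le F hK h1 h2 hc (hR.e0 c hc) (hR.exU c hc)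

end Vale.Agent.P122.H683
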