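import Vale.Agent.P122.H683.Low
import Vale.Agent.P122.H380.E8

/-!
# P122 / H683 : `StExc 2` (helper683)
-/

set_option autoImplicit false

namespace Vale.Agent.P122.H683

open Vale.Agent.P122.E Vale.Agent.P122.H380

theorem stExc : StExc 2 := by
  intro K F J θ H e W kk jj hK hR c d h0 h1 h2 h3
  have h4 := exc_lst_reg F hK hR h1 h2 (by omega)
  have h5 : (0:ℝ) ≤ 2 / K := by positivity
  have h6 : 2 * ((d:ℝ) - c) / K = 2 * (((d:ℝ) - c) / K) := by ring
  rw [h6] at h4
  linarith

end Vale.Agent.P122.H683
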